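import Vale.Agent.P011.H327.Star.Main
import Vale.Agent.P011N.D2.Good

/-!
The Lie algebra of the cubic norm of an Albert algebra is simple.
-/

open Vale.Agent.P011.MPQ Vale.Agent.P011.D4 Vale.Agent.P011.D4.Oct

namespace Vale.Agent.P011N.E2s

open Vale.Agent.P011.E6 Vale.Agent.P011.E6.Alb Vale.Agent.P011.H327.Star Vale.Agent.P011N.D2

/-- An invariant subspace contains the eigencomponents of its elements. -/
theorem mem_of_eig {F M ι : Type} [Field F] [AddCommGroup M] [Module F M] {U : Submodule F M}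
    {φ : M →ₗ[F] M} (hφ : ∀ u ∈ U, φ u ∈ U) {l : ι → F} (hl : Function.Injective l)
    (s : Finset ι) : ∀ x : ι → M, (∀ i, φ (x i) = l i • x i) → ∑ i ∈ s, x i ∈ U →
      ∀ i ∈ s, x i ∈ U := by
  classical
  induction s using Finset.induction_on with
  | empty => intro x _ _ i hi; exact absurd hi (Finset.notMem_empty i)
  | insert j s hj ih =>
    intro x hx h
    have h1 : ∑ i ∈ s, (l i - l j) • x i ∈ U := by
      have h2 := U.sub_mem (hφ _ h) (U.smul_mem (l j) h)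
      rw [map_sum, Finset.smul_sum, ← Finset.sum_sub_distrib, Finset.sum_insert hj, hx j,
        sub_self, zero_add] at h2
      convert h2 using 2 with i
      rw [hx i, sub_smul]
    have h2 : ∀ i ∈ s, x i ∈ U := fun i hi => by
      have h3 := ih (fun i => (l i - l j) • x i) (fun i => by rw [map_smul, hx i, smul_comm]) h1
        i hi
      have h4 : l i - l j ≠ 0 := sub_ne_zero.2 fun e => hj (hl e ▸ hi)
      have h5 := U.smul_mem (l i - l j)⁻¹ h3
      rwa [inv_smul_smul₀ h4] at h5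
    intro i hi
    rcases Finset.mem_insert.1 hi with rfl | hi
    · rw [Finset.sum_insert hj] at h
      exact (U.add_mem_iff_left (U.sum_mem h2)).1 h
    · exact h2 i hi

variable {F : Type} [Field F] {a b c : Fˣ}

/-- The derivations of the cubic norm. -/
def sE (a b c : Fˣ) : Submodule F (Module.End F (Alb a b c)) where
  carrier := {X | Dr X}
  add_mem' := Dr.add
  zero_mem' := fun x => by rw [LinearMap.zero_apply, tf_zero_right]
  smul_mem' := fun t _ h => Dr.smul t h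

theorem mem_sE {X : Module.End F (Alb a b c)} : X ∈ sE a b c ↔ ∀ x, tf (adj x) (X x) = 0 :=
  Iff.rfl

/-- The diagonal derivations. -/
def Hd (s t : F) : Module.End F (Alb a b c) where
  toFun x := ⟨2 * s * x.d1, 2 * (t - s) * x.d2, -(2 * t * x.d3), (-s) • x.x1, (s - t) • x.x2,
    t • x.x3⟩
  map_add' x y := by
    ext1 <;> simp only [d1_add, d2_add, d3_add, x1_add, x2_add, x3_add, smul_add] <;> ring
  map_smul' r x := by
    ext1 <;> simp only [d1_smul, d2_smul, d3_smul, x1_smul, x2_smul, x3_smul, RingHom.id_apply,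
      smul_comm r] <;> ring

theorem Hd_apply (s t : F) (x : Alb a b c) : Hd s t x = ⟨2 * s * x.d1, 2 * (t - s) * x.d2,
    -(2 * t * x.d3), (-s) • x.x1, (s - t) • x.x2, t • x.x3⟩ := rfl

theorem Hd_eq [NeZero (2 : F)] (s t : F) : (Hd s t : Module.End F (Alb a b c)) =
    s • (P3 1 * M3 1 - M3 1 * P3 1) + t • (P1 1 * M1 1 - M1 1 * P1 1) := by
  refine LinearMap.ext fun x => ?_
  rw [LinearMap.add_apply, LinearMap.smul_apply, LinearMap.smul_apply, brk_P3_M3, brk_P1_M1,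
    Hd_apply]
  apply Alb.ext <;> simp only [d1_add, d2_add, d3_add, x1_add, x2_add, x3_add, d1_smul, d2_smul,
    d3_smul, x1_smul, x2_smul, x3_smul, star_one, bil_one_one, one_mul, mul_one, sub_self,
    smul_zero, add_zero, zero_add, smul_neg, neg_smul, add_smul, sub_eq_add_neg] <;> ring

theorem dr_Hd [NeZero (2 : F)] (s t : F) : Dr (Hd s t : Module.End F (Alb a b c)) := by
  rw [Hd_eq]
  exact (((dr_P3 _).brk (dr_M3 _)).smul s).add (((dr_P1 _).brk (dr_M1 _)).smul t)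

/-- The adjoint action. -/
def ad (H : Module.End F (Alb a b c)) : Module.End F (Alb a b c) →ₗ[F] Module.End F (Alb a b c) :=
  LinearMap.mulLeft F H - LinearMap.mulRight F H

theorem ad_apply (H X : Module.End F (Alb a b c)) : ad H X = H * X - X * H := rfl

theorem ad_all (s t : F) (u : Oct a b c) : ad (Hd s t) (P1 u) = (2 * t - s) • P1 u ∧
    ad (Hd s t) (P2 u) = (-(s + t)) • P2 u ∧ ad (Hd s t) (P3 u) = (2 * s - t) • P3 u ∧
    ad (Hd s t) (M1 u) = (s - 2 * t) • M1 u ∧ ad (Hd s t) (M2 u) = (s + t) • M2 u ∧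
    ad (Hd s t) (M3 u) = (t - 2 * s) • M3 u := by
  refine ⟨?_, ?_, ?_, ?_, ?_, ?_⟩ <;> refine LinearMap.ext fun x => ?_ <;>
    rw [ad_apply, LinearMap.sub_apply, Module.End.mul_apply, Module.End.mul_apply,
      LinearMap.smul_apply] <;>
    apply Alb.ext <;> simp only [P1_apply, P2_apply, P3_apply, M1_apply, M2_apply, M3_apply,
      Hd_apply, d1_sub, d2_sub, d3_sub, x1_sub, x2_sub, x3_sub, d1_smul, d2_smul, d3_smul, x1_smul,
      x2_smul, x3_smul, bil_smul_right, mul_smul_oct, star_smul_oct, smul_zero, sub_zero, mul_zero,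
      neg_zero, smul_smul, ← sub_smul] <;> first | ring1 | (congr 1; ring1)

theorem ad_P1 (s t : F) (u : Oct a b c) : ad (Hd s t) (P1 u) = (2 * t - s) • P1 u :=
  (ad_all s t u).1
theorem ad_P2 (s t : F) (u : Oct a b c) : ad (Hd s t) (P2 u) = (-(s + t)) • P2 u :=
  (ad_all s t u).2.1
theorem ad_P3 (s t : F) (u : Oct a b c) : ad (Hd s t) (P3 u) = (2 * s - t) • P3 u :=
  (ad_all s t u).2.2.1
theorem ad_M1 (s t : F) (u : Oct a b c) : ad (Hd s t) (M1 u) = (s - 2 * t) • M1 u :=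
  (ad_all s t u).2.2.2.1
theorem ad_M2 (s t : F) (u : Oct a b c) : ad (Hd s t) (M2 u) = (s + t) • M2 u :=
  (ad_all s t u).2.2.2.2.1
theorem ad_M3 (s t : F) (u : Oct a b c) : ad (Hd s t) (M3 u) = (t - 2 * s) • M3 u :=
  (ad_all s t u).2.2.2.2.2

theorem ad_Hd (s t s' t' : F) : ad (Hd s t) (Hd s' t' : Module.End F (Alb a b c)) = 0 := by
  refine LinearMap.ext fun x => ?_
  rw [ad_apply, LinearMap.sub_apply, Module.End.mul_apply, Module.End.mul_apply,
    LinearMap.zero_apply, sub_eq_zero]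
  apply Alb.ext <;> simp only [Hd_apply, smul_smul] <;> first | ring1 | (congr 1; ring1)

theorem decomp (x : Alb a b c) :
    x = x.d1 • e1 + x.d2 • e2 + x.d3 • e3 + o1 x.x1 + o2 x.x2 + o3 x.x3 := by
  apply Alb.ext <;> simp [Alb.e1, Alb.e2, Alb.e3, o1, o2, o3]

theorem Hd_o1 (s t : F) (w : Oct a b c) : Hd s t (o1 w) = (-s) • o1 w := by
  apply Alb.ext <;> simp [Hd_apply, o1]

theorem Hd_o2 (s t : F) (w : Oct a b c) : Hd s t (o2 w) = (s - t) • o2 w := by
  apply Alb.ext <;> simp [Hd_apply, o2]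

theorem Hd_o3 (s t : F) (w : Oct a b c) : Hd s t (o3 w) = t • o3 w := by
  apply Alb.ext <;> simp [Hd_apply, o3]

theorem Hd_e1 (s t : F) : Hd s t (e1 : Alb a b c) = (2 * s) • e1 := by
  apply Alb.ext <;> simp [Hd_apply, Alb.e1]

theorem Hd_e2 (s t : F) : Hd s t (e2 : Alb a b c) = (2 * (t - s)) • e2 := by
  apply Alb.ext <;> simp [Hd_apply, Alb.e2]

theorem Hd_e3 (s t : F) : Hd s t (e3 : Alb a b c) = (-(2 * t)) • e3 := by
  apply Alb.ext <;> simp [Hd_apply, Alb.e3]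

theorem ad_Kl [NeZero (2 : F)] (s t : F) {K : Module.End F (Alb a b c)} (hK : Dr K) (hk : Kl K) :
    ad (Hd s t) K = 0 := by
  refine LinearMap.ext fun x => ?_
  rw [ad_apply, LinearMap.zero_apply, decomp x]
  simp only [map_add, map_smul, LinearMap.sub_apply, Module.End.mul_apply, Hd_e1, Hd_e2, Hd_e3,
    Hd_o1, Hd_o2, Hd_o3, hk.1, hk.2.1, hk.2.2, map_zero, smul_zero, sub_zero, zero_add]
  rw [hK.on1 hk, hK.on2 hk, hK.on3 hk, Hd_o1, Hd_o2, Hd_o3, sub_self, sub_self, sub_self,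
    add_zero, add_zero]

/-- The root decomposition. -/
theorem exists_dec [NeZero (2 : F)] {X : Module.End F (Alb a b c)} (hX : Dr X) :
    ∃ (u1 u2 u3 v1 v2 v3 : Oct a b c) (Z : Module.End F (Alb a b c)),
      X = P1 u1 + P2 u2 + P3 u3 + M1 v1 + M2 v2 + M3 v3 + Z ∧ ∀ s t, ad (Hd s t) Z = 0 := by
  obtain ⟨p1, p2, p3⟩ := hX.at1
  obtain ⟨q1, q2, q3⟩ := hX.at2
  obtain ⟨r1, r2, r3⟩ := hX.at3
  have hs := hX.sum
  have hA : (Rd (X e1) (X e2) (X e3) : Module.End F (Alb a b c)) =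
      P1 (X e3).x1 + P2 (X e1).x2 + P3 (X e2).x3 + M1 (star (X e2).x1) + M2 (star (X e3).x2) +
        M3 (star (X e1).x3) + Hd ((X e1).d1 / 2) (-((X e3).d3 / 2)) := by
    rw [Rd, Hd_eq, neg_smul]
    abel
  have hD : Dr (X - Rd (X e1) (X e2) (X e3)) := by
    rw [hA]
    exact hX.sub (((((((dr_P1 _).add (dr_P2 _)).add (dr_P3 _)).add (dr_M1 _)).add (dr_M2 _)).add
      (dr_M3 _)).add (dr_Hd _ _))
  have hK : Kl (X - Rd (X e1) (X e2) (X e3)) := by
    refine ⟨?_, ?_, ?_⟩ <;> rw [LinearMap.sub_apply]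
    · rw [Rd_e1 _ _ _ p1 p2 p3, sub_self]
    · rw [Rd_e2 _ _ _ q1 q2 q3 hs, sub_self]
    · rw [Rd_e3 _ _ _ r1 r2 r3, sub_self]
  refine ⟨(X e3).x1, (X e1).x2, (X e2).x3, star (X e2).x1, star (X e3).x2, star (X e1).x3,
    Hd ((X e1).d1 / 2) (-((X e3).d3 / 2)) + (X - Rd (X e1) (X e2) (X e3)), ?_, fun s t => ?_⟩
  · rw [← add_assoc, ← hA, add_sub_cancel]
  · rw [map_add, ad_Hd, ad_Kl s t hD hK, add_zero]

/-- The octonion algebra is simple. -/
theorem oct_simple [NeZero (2 : F)] {W : Oct a b c → Prop}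
    (hl : ∀ u v, W u → W v → ∀ s t : F, W (s • u + t • v))
    (hm : ∀ u, W u → ∀ v, W (u * v) ∧ W (v * u)) {u : Oct a b c} (hu : W u) (h0 : u ≠ 0)
    (v : Oct a b c) : W v := by
  have h2 : (2 : F) ≠ 0 := NeZero.ne 2
  have ha := a.ne_zero
  have hb := b.ne_zero
  obtain ⟨y, hy⟩ : ∃ y, bil u y ≠ 0 := by
    by_contra h
    push Not at h
    exact h0 (eq_zero_of_bil h)
  obtain ⟨w, hw, hw0⟩ : ∃ w : Oct a b c, W w ∧ w.fst.re ≠ 0 := by
    refine ⟨u * star y, (hm u hu _).1, fun e => hy ?_⟩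
    have h1 : bil (u * star y) 1 = bil u y := by rw [bil_mul_left', star_star, one_mul]
    rw [← h1, bil_eq, e]
    simp
  have h3 := hl _ _ hw (hm _ (hm w hw gi).1 gi).2 1 (a : F)⁻¹
  have h4 : (1 : F) • w + (a : F)⁻¹ • (gi * (w * gi)) =
      ⟨⟨2 * w.fst.re, 2 * w.fst.imI, 0, 0⟩, 0⟩ := by
    apply ext8 <;> simp [gi] <;> field_simp <;> ring
  rw [h4] at h3
  have h5 := hl _ _ h3 (hm _ (hm _ h3 gj).1 gj).2 (2 * 2 * w.fst.re)⁻¹
    ((2 * 2 * w.fst.re)⁻¹ * (b : F)⁻¹)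
  have h6 : (2 * 2 * w.fst.re)⁻¹ • (⟨⟨2 * w.fst.re, 2 * w.fst.imI, 0, 0⟩, 0⟩ : Oct a b c) +
      ((2 * 2 * w.fst.re)⁻¹ * (b : F)⁻¹) •
        (gj * ((⟨⟨2 * w.fst.re, 2 * w.fst.imI, 0, 0⟩, 0⟩ : Oct a b c) * gj)) = 1 := by
    apply ext8 <;> simp [gj] <;> field_simp <;> ring
  rw [h6] at h5
  have h7 := (hm 1 h5 v).1
  rwa [one_mul] at h7

section ideal

variable {U : Submodule F (Module.End F (Alb a b c))}

theorem brkL (hU : sE a b c ≤ stabL U) {X Y : Module.End F (Alb a b c)} (hX : Dr X)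
    (hY : Y ∈ U) : X * Y - Y * X ∈ U := hU hX Y hY

theorem brkR (hU : sE a b c ≤ stabL U) {X Y : Module.End F (Alb a b c)} (hX : X ∈ U)
    (hY : Dr Y) : X * Y - Y * X ∈ U := by
  rw [← neg_sub]
  exact U.neg_mem (hU hY X hX)

theorem cyc (hU : sE a b c ≤ stabL U) (u : Oct a b c) :
    (P3 u ∈ U → M2 u ∈ U) ∧ (M2 u ∈ U → P1 u ∈ U) ∧ (P1 u ∈ U → M3 u ∈ U) ∧
      (M3 u ∈ U → P2 u ∈ U) ∧ (P2 u ∈ U → M1 u ∈ U) ∧ (M1 u ∈ U → P3 u ∈ U) := by
  refine ⟨fun h => ?_, fun h => ?_, fun h => ?_, fun h => ?_, fun h => ?_, fun h => ?_⟩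
  · have k := brkR hU h (dr_P1 1)
    rwa [brk_P3_P1, mul_one] at k
  · have k := brkL hU (dr_M3 1) h
    rwa [brk_M3_M2, one_mul] at k
  · have k := brkR hU h (dr_P2 1)
    rwa [brk_P1_P2, mul_one] at k
  · have k := brkL hU (dr_M1 1) h
    rwa [brk_M1_M3, one_mul] at k
  · have k := brkR hU h (dr_P3 1)
    rwa [brk_P2_P3, mul_one] at k
  · have k := brkL hU (dr_M2 1) h
    rwa [brk_M2_M1, one_mul] at k

theorem has_of_P3 (hU : sE a b c ≤ stabL U) {u : Oct a b c} (h : P3 u ∈ U) : Has U u := by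
  obtain ⟨c1, c2, c3, c4, c5, -⟩ := cyc hU u
  exact ⟨c2 (c1 h), c4 (c3 (c2 (c1 h))), h, c5 (c4 (c3 (c2 (c1 h)))), c1 h, c3 (c2 (c1 h))⟩

theorem has_mul (hU : sE a b c ≤ stabL U) {u : Oct a b c} (h : Has U u) (v : Oct a b c) :
    Has U (u * v) ∧ Has U (v * u) := by
  constructor <;> apply has_of_P3 hU <;> rw [← brk_M2_M1]
  · exact brkR hU h.2.2.2.2.1 (dr_M1 v)
  · exact brkL hU (dr_M2 v) h.2.2.2.1

end ideal

section char

variable [CharZero F]

theorem schur {n : Module.End F (Alb a b c)} (hn : sE a b c ≤ centL n) :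
    ∃ e : F, ∀ x, n x = e • x := by
  have hc : ∀ Y, Dr Y → ∀ x, n (Y x) = Y (n x) := fun Y hY x =>
    LinearMap.congr_fun (hn hY : n * Y = Y * n) x
  have h1 : n e1 = (n e1).d1 • e1 := by
    have h := hc _ (dr_Hd 2 3) e1
    rw [Hd_e1, map_smul, Hd_apply] at h
    have k2 := congrArg Alb.d2 h
    have k3 := congrArg Alb.d3 h
    have k4 := congrArg Alb.x1 h
    have k5 := congrArg Alb.x2 h
    have k6 := congrArg Alb.x3 h
    simp only [d2_smul, d3_smul, x1_smul, x2_smul, x3_smul] at k2 k3 k4 k5 k6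
    have hz : ∀ (s t : F) (w : Oct a b c), s • w = t • w → s ≠ t → w = 0 := fun s t w h hst => by
      rw [← sub_eq_zero, ← sub_smul] at h
      exact (smul_eq_zero.1 h).resolve_left (sub_ne_zero.2 hst)
    generalize n e1 = y at k2 k3 k4 k5 k6 ⊢
    apply Alb.ext <;> simp only [Alb.e1, d1_smul, d2_smul, d3_smul, x1_smul, x2_smul, x3_smul,
      mul_one, mul_zero, smul_zero]
    · linear_combination (1 / 2 : F) * k2
    · linear_combination (1 / 10 : F) * k3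
    · exact hz _ _ _ k4 (by norm_num)
    · exact hz _ _ _ k5 (by norm_num)
    · exact hz _ _ _ k6 (by norm_num)
  set e := (n e1).d1
  have hs : ∀ Y, Dr Y → ∀ x, n x = e • x → n (Y x) = e • Y x := fun Y hY x hx => by
    rw [hc Y hY, hx, map_smul]
  have h2 : ∀ w, n (o2 w) = e • o2 w := fun w => by
    have k : P2 w e1 = o2 w := by apply Alb.ext <;> simp [P2_apply, Alb.e1, o2]
    rw [← k]
    exact hs _ (dr_P2 w) _ h1
  have h3 : ∀ w, n (o3 w) = e • o3 w := fun w => by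
    have k : M3 (star w) e1 = o3 w := by apply Alb.ext <;> simp [M3_apply, Alb.e1, o3]
    rw [← k]
    exact hs _ (dr_M3 _) _ h1
  have h4 : n e2 = e • e2 := by
    have k : (e2 : Alb a b c) = M3 1 (o3 ((2 : F)⁻¹ • 1)) := by
      apply Alb.ext <;> simp [M3_apply, Alb.e2, o3, bil_smul_right, bil_one_one]
    rw [k]
    exact hs _ (dr_M3 _) _ (h3 _)
  have h5 : n e3 = e • e3 := by
    have k : (e3 : Alb a b c) = P2 1 (o2 ((2 : F)⁻¹ • 1)) := by
      apply Alb.ext <;> simp [P2_apply, Alb.e3, o2, bil_smul_right, bil_one_one]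
    rw [k]
    exact hs _ (dr_P2 _) _ (h2 _)
  have h6 : ∀ w, n (o1 w) = e • o1 w := fun w => by
    have k : P1 w e3 = o1 w := by apply Alb.ext <;> simp [P1_apply, Alb.e3, o1]
    rw [← k]
    exact hs _ (dr_P1 w) _ h5
  refine ⟨e, fun x => ?_⟩
  rw [decomp x]
  simp only [map_add, map_smul, h1, h2, h3, h4, h5, h6, smul_add, smul_comm e]

theorem comps {U : Submodule F (Module.End F (Alb a b c))} (hU : sE a b c ≤ stabL U)
    {u1 u2 u3 v1 v2 v3 : Oct a b c} {Z : Module.End F (Alb a b c)}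
    (hX : P1 u1 + P2 u2 + P3 u3 + M1 v1 + M2 v2 + M3 v3 + Z ∈ U) (hZ : ad (Hd 2 3) Z = 0) :
    Has U u1 ∧ Has U u2 ∧ Has U u3 ∧ Has U v1 ∧ Has U v2 ∧ Has U v3 := by
  have hl : Function.Injective (![4, -5, 1, -4, 5, -1, 0] : Fin 7 → F) := by
    have h1 : Function.Injective (![4, -5, 1, -4, 5, -1, 0] : Fin 7 → ℤ) := by decide
    have h2 : (![4, -5, 1, -4, 5, -1, 0] : Fin 7 → F) =
        fun i => ((![4, -5, 1, -4, 5, -1, 0] : Fin 7 → ℤ) i : F) := by
      funext i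
      fin_cases i <;> simp
    rw [h2]
    exact fun i j h => h1 (Int.cast_injective h)
  have h := mem_of_eig (U := U) (φ := ad (Hd 2 3)) (fun Y hY => brkL hU (dr_Hd 2 3) hY) hl
    Finset.univ ![P1 u1, P2 u2, P3 u3, M1 v1, M2 v2, M3 v3, Z] (fun i => by
      fin_cases i
      · exact (ad_P1 2 3 u1).trans (by norm_num)
      · exact (ad_P2 2 3 u2).trans (by norm_num)
      · exact (ad_P3 2 3 u3).trans (by norm_num)
      · exact (ad_M1 2 3 v1).trans (by norm_num)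
      · exact (ad_M2 2 3 v2).trans (by norm_num)
      · exact (ad_M3 2 3 v3).trans (by norm_num)
      · exact hZ.trans (zero_smul F Z).symm) (by rw [Fin.sum_univ_seven]; exact hX)
  have k : ∀ u, (P1 u ∈ U → Has U u) ∧ (P2 u ∈ U → Has U u) ∧ (M1 u ∈ U → Has U u) ∧
      (M2 u ∈ U → Has U u) ∧ (M3 u ∈ U → Has U u) := fun u => by
    obtain ⟨-, c2, c3, c4, c5, c6⟩ := cyc hU u
    exact ⟨fun h => has_of_P3 hU (c6 (c5 (c4 (c3 h)))), fun h => has_of_P3 hU (c6 (c5 h)),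
      fun h => has_of_P3 hU (c6 h), fun h => has_of_P3 hU (c6 (c5 (c4 (c3 (c2 h))))),
      fun h => has_of_P3 hU (c6 (c5 (c4 h)))⟩
  exact ⟨(k _).1 (h 0 (Finset.mem_univ _)), (k _).2.1 (h 1 (Finset.mem_univ _)),
    has_of_P3 hU (h 2 (Finset.mem_univ _)), (k _).2.2.1 (h 3 (Finset.mem_univ _)),
    (k _).2.2.2.1 (h 4 (Finset.mem_univ _)), (k _).2.2.2.2 (h 5 (Finset.mem_univ _))⟩

theorem simple (U : Submodule F (Module.End F (Alb a b c))) (hle : U ≤ sE a b c) (h0 : U ≠ ⊥)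
    (hU : sE a b c ≤ stabL U) : sE a b c ≤ U := by
  by_cases h : ∃ u : Oct a b c, Has U u ∧ u ≠ 0
  · obtain ⟨u, hu, hu0⟩ := h
    intro X hX
    exact star_main (fun Y hY Z hZ => hU (hle hY) Z hZ) (fun q _ =>
      oct_simple (W := Has U) (fun _ _ h1 h2 => h1.lin h2) (fun _ h1 => has_mul hU h1) hu hu0 q) hX
  push Not at h
  have h1 : ∀ X ∈ U, ad (Hd 2 3) X = 0 := fun X hX => by
    obtain ⟨u1, u2, u3, v1, v2, v3, Z, rfl, hZ⟩ := exists_dec (hle hX)
    obtain ⟨k1, k2, k3, k4, k5, k6⟩ := comps hU hX (hZ 2 3)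
    obtain rfl := h _ k1
    obtain rfl := h _ k2
    obtain rfl := h _ k3
    obtain rfl := h _ k4
    obtain rfl := h _ k5
    obtain rfl := h _ k6
    have e : (P1 0 + P2 0 + P3 0 + M1 0 + M2 0 + M3 0 : Module.End F (Alb a b c)) = 0 := by
      refine LinearMap.ext fun x => ?_
      apply Alb.ext <;> simp [P1_apply, P2_apply, P3_apply, M1_apply, M2_apply, M3_apply]
    rw [e, zero_add, hZ]
  obtain ⟨X, hX, hX0⟩ := (Submodule.ne_bot_iff U).1 h0
  have h2 : ∀ (Y : Module.End F (Alb a b c)) (l : F), Dr Y → ad (Hd 2 3) Y = l • Y → l ≠ 0 →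
      Y ∈ centL X := fun Y l hY hl hl0 => by
    have k1 := h1 _ (brkR hU hX hY)
    have k2 := h1 _ hX
    have k3 : ad (Hd 2 3) (X * Y - Y * X) = ad (Hd 2 3) X * Y - Y * ad (Hd 2 3) X +
        (X * ad (Hd 2 3) Y - ad (Hd 2 3) Y * X) := by
      simp only [ad_apply]
      noncomm_ring
    rw [k1, k2, hl, zero_mul, mul_zero, sub_zero, zero_add, mul_smul_comm, smul_mul_assoc,
      ← smul_sub] at k3
    exact sub_eq_zero.1 ((smul_eq_zero.1 k3.symm).resolve_left hl0)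
  have h3 : sE a b c ≤ centL X := fun Y hY => star_main (cl_centL X) (fun q _ =>
    ⟨h2 _ _ (dr_P1 q) (ad_P1 2 3 q) (by norm_num), h2 _ _ (dr_P2 q) (ad_P2 2 3 q) (by norm_num),
      h2 _ _ (dr_P3 q) (ad_P3 2 3 q) (by norm_num), h2 _ _ (dr_M1 q) (ad_M1 2 3 q) (by norm_num),
      h2 _ _ (dr_M2 q) (ad_M2 2 3 q) (by norm_num),
      h2 _ _ (dr_M3 q) (ad_M3 2 3 q) (by norm_num)⟩) hY
  obtain ⟨e, he⟩ := schur h3
  have h4 := Dr.sum (hle hX)
  simp only [he, d1_smul, d2_smul, d3_smul, Alb.e1, Alb.e2, Alb.e3, mul_one] at h4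
  have h5 : e = 0 := by linear_combination (1 / 3 : F) * h4
  exact absurd (LinearMap.ext fun x => by rw [he, h5, zero_smul, LinearMap.zero_apply]) hX0

/-- **The Lie algebra of the cubic norm is simple**, with scalar centraliser. -/
theorem simpleL : SimpleL (sE a b c) where
  cl := fun _ hY _ hZ => Dr.brk hY hZ
  simple := simple
  nonab := ⟨Hd 2 3, dr_Hd 2 3, P3 1, dr_P3 1, fun h => by
    have h1 := ad_P3 (2 : F) 3 (1 : Oct a b c)
    rw [ad_apply, h, sub_self] at h1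
    have h2 := congrArg (fun Y : Module.End F (Alb a b c) => (Y (o3 1)).d1) h1
    simp only [LinearMap.zero_apply, d1_zero, LinearMap.smul_apply, d1_smul, P3_apply, o3,
      bil_one_one] at h2
    norm_num at h2⟩
  schur := fun _ hn => schur hn

/-- The root operators of the pure octonions generate. -/
theorem gen {T₀ : Set (Module.End F (Alb a b c))}
    (h : ∀ S : Submodule F (Module.End F (Alb a b c)), Cl S → T₀ ⊆ S →
      ∀ q : Oct a b c, bil q 1 = 0 → Has S q) : Gen T₀ (sE a b c) :=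
  fun S hS hT _ hX => star_main hS (h S hS hT) hX

end char

end Vale.Agent.P011N.E2s
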